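import Mathlib

/-!
# Jacobsthal's conjecture: definitions and statements of the modules
-/

open Finset Real

namespace Vale.Agent.P013.J

/-- `e x = exp (2 π i x)` -/
noncomputable def e (x : ℝ) : ℂ := Complex.exp (2 * π * x * Complex.I)

/-- number of `1 ≤ i ≤ y` such that no prime `p < z` divides `i - V` -/
noncomputable def surv (y : ℕ) (z : ℝ) (V : ℤ) : ℕ := by
  classical
  exact ((Icc 1 y).filter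
    (fun i : ℕ => ∀ p : ℕ, p.Prime → (p : ℝ) < z → ¬ (p : ℤ) ∣ (i : ℤ) - V)).card

/-! ### Primes in progressions -/

/-- Chebyshev function in a residue class -/
noncomputable def psiAP (x : ℝ) (q a : ℕ) : ℝ :=
  ∑ n ∈ (Icc 1 ⌊x⌋₊).filter (fun n => n ≡ a [MOD q]), ArithmeticFunction.vonMangoldt n

/-- Siegel's theorem -/
def SiegelStmt : Prop := ∀ ε : ℝ, 0 < ε → ∃ c : ℝ, 0 < c ∧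
  ∀ (q : ℕ) [NeZero q] (χ : DirichletCharacter ℂ q), χ ≠ 1 → χ ^ 2 = 1 →
    c * (q : ℝ) ^ (-ε) ≤ ‖DirichletCharacter.LFunction χ 1‖

/-- Siegel-Walfisz -/
def SWStmt : Prop := ∀ C : ℝ, 0 < C → ∃ x₀ : ℝ, ∀ x : ℝ, x₀ ≤ x → ∀ q a : ℕ, 1 ≤ q →
  (q : ℝ) ≤ (log x) ^ C → Nat.Coprime a q →
    |psiAP x q a - x / (Nat.totient q : ℝ)| ≤ x / (log x) ^ C

/-- Bombieri-Vinogradov with a small level, arbitrary reduced classes -/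
def BVStmt : Prop := ∃ κ : ℝ, 0 < κ ∧ κ ≤ 1 / 10 ∧ ∀ C : ℝ, 0 < C → ∃ x₀ : ℝ, ∀ x : ℝ, x₀ ≤ x →
  ∀ h : ℕ → ℕ, (∀ q, 1 ≤ q → Nat.Coprime (h q) q) →
    ∑ q ∈ Icc 1 ⌊x ^ κ⌋₊, |psiAP x q (h q) - x / (Nat.totient q : ℝ)| ≤ x / (log x) ^ C

/-! ### The two halves of the proof -/

/-- total mass of the primes of `[y^c, z)` not dividing `D V - B` -/
noncomputable def excMass (y : ℕ) (c z : ℝ) (V B : ℤ) (D : ℕ) : ℝ := by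
  classical
  exact ∑ p ∈ (range y).filter (fun p : ℕ => p.Prime ∧ (y : ℝ) ^ c ≤ p ∧ (p : ℝ) < z ∧
    ¬ (p : ℤ) ∣ D * V - B), 1 / (p : ℝ)

/-- rationals of small height: survivors exist -/
def PartVStmt : Prop := ∃ c ε c' : ℝ, 0 < c ∧ c < 1 / 10 ∧ 0 < ε ∧ 0 < c' ∧
  ∀ A C₄ : ℝ, 0 < A → 0 < C₄ → ∃ y₀ : ℕ, ∀ y : ℕ, y₀ ≤ y → ∀ (V B : ℤ) (D : ℕ),
    IsCoprime B (D : ℤ) → 1 ≤ D → (D : ℝ) ≤ (log y) ^ C₄ → |(B : ℝ)| ≤ y * (log y) ^ C₄ →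
    excMass y c (√y * (log y) ^ A) V B D ≤ ε →
    c' * y / (log y) ^ 2 ≤ surv y (√y * (log y) ^ A) V

/-- few survivors force one rational of small height -/
def DichStmt : Prop := ∀ c ε A : ℝ, 0 < c → c < 1 / 10 → 0 < ε → 0 < A →
  ∃ C₄ : ℝ, 0 < C₄ ∧ ∃ y₀ : ℕ, ∀ y : ℕ, y₀ ≤ y → ∀ V : ℤ,
    (surv y (√y * (log y) ^ A) V : ℝ) ≤ y / (log y) ^ 2 →
    ∃ (B : ℤ) (D : ℕ), IsCoprime B (D : ℤ) ∧ 1 ≤ D ∧ (D : ℝ) ≤ (log y) ^ C₄ ∧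
      |(B : ℝ)| ≤ y * (log y) ^ C₄ ∧ excMass y c (√y * (log y) ^ A) V B D ≤ ε

/-- the main sieve theorem -/
def TStarStmt : Prop := ∀ A : ℝ, 0 < A → ∃ c : ℝ, 0 < c ∧ ∃ y₀ : ℕ, ∀ y : ℕ, y₀ ≤ y →
  ∀ V : ℤ, c * y / (log y) ^ 2 ≤ surv y (√y * (log y) ^ A) V

/-! ### Boxes of small primes -/

/-- lower end of zone `j` on the scale `log p` -/
noncomputable def zlo (y : ℝ) (j : ℕ) : ℝ := (log (log y)) ^ (10 * j + 3)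

/-- upper end of zone `j` on the scale `log p` -/
noncomputable def zhi (y : ℝ) (j : ℕ) : ℝ := (log (log y)) ^ (10 * j + 5)

/-- sum of `f (s₀ s₁ ⋯ s_r)` over the box `I₀ × ⋯ × I_r` -/
noncomputable def boxSum (r : ℕ) (I : ℕ → Finset ℕ) (f : ℕ → ℂ) : ℂ :=
  ∑ s ∈ Fintype.piFinset (fun j : Fin (r + 1) => I j), f (∏ j, s j)

/-- Inverse theorem (section 2 of the blueprint) -/
def InverseStmt : Prop := ∀ A : ℝ, 0 < A → ∃ r : ℕ, ∃ y₀ : ℝ, ∀ y : ℝ, y₀ ≤ y →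
  ∀ (P S : ℕ → ℝ) (I : ℕ → Finset ℕ),
  (∀ j ≤ r, 0 < P j ∧ zlo y j ≤ log (P j) ∧ log (P j) ≤ zhi y j) →
  (∀ j ≤ r, P j / (log y) ^ A ≤ S j ∧ ((I j).card : ℝ) ≤ S j) →
  (∀ j ≤ r, ∀ p ∈ I j, p.Prime ∧ P j ≤ (p : ℝ) ∧ (p : ℝ) ≤ 2 * P j) →
  ∀ T : ℝ, exp ((log y) ^ (0.93 : ℝ)) ≤ T → T ≤ y → ∀ t : ℤ,
  ∃ E : Finset ℕ, (E.card : ℝ) ≤ T ^ (0.95 : ℝ) ∧
    ∀ M : ℕ, T ≤ (M : ℝ) → (M : ℝ) ≤ 2 * T → M ∉ E →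
      (log y) ^ (-A) * ∏ j ∈ range (r + 1), S j ≤
        ‖boxSum r I (fun s => e (((t / (M : ℤ) : ℤ) : ℝ) / (s : ℝ)))‖ →
      ∃ u c : ℤ, 1 ≤ u ∧ (u : ℝ) ≤ T ^ (0.2 : ℝ) ∧ |(c : ℝ)| ≤ 6 * T ^ (1.2 : ℝ) ∧
        (M : ℤ) ∣ u * t - c ∧
        T ^ (0.8 : ℝ) ≤ (((Icc 1 ⌊2 * T⌋₊).filter
          (fun M' : ℕ => T ≤ (M' : ℝ) ∧ (M' : ℤ) ∣ u * t - c)).card : ℝ)

/-- Rationals of large height: natural bad `M` are rare (section 3 of the blueprint) -/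
def NaturalStmt : Prop := ∀ (A : ℝ) (r : ℕ), 0 < A → ∃ C₄ : ℝ, 0 < C₄ ∧ ∃ y₀ : ℝ,
  ∀ y : ℝ, y₀ ≤ y → ∀ κ : ℝ, (log y) ^ (-A) ≤ κ → κ ≤ 1 →
  ∀ (P : ℕ → ℝ) (I : ℕ → Finset ℕ),
  (∀ j ≤ r, 0 < P j ∧ zlo y j ≤ log (P j) ∧ log (P j) ≤ zhi y j) →
  (∀ j ≤ r, ∀ p ∈ I j, p.Prime ∧ P j ≤ (p : ℝ) ∧ (p : ℝ) ≤ (1 + κ) * P j) →
  ∀ (V B b : ℤ) (D e₁ : ℕ), IsCoprime B (D : ℤ) → 1 ≤ D →
  (D : ℝ) ≤ exp ((log y) ^ (0.96 : ℝ)) → |(B : ℝ)| ≤ y * exp ((log y) ^ (0.96 : ℝ)) →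
  (log y) ^ C₄ ≤ max (D : ℝ) (|(B : ℝ)| / y) → b ≠ 0 → |(b : ℝ)| ≤ (log y) ^ A →
  1 ≤ e₁ → (e₁ : ℝ) ≤ exp ((log y) ^ (0.96 : ℝ)) →
  ∀ Y : ℝ, y * (log y) ^ (-A) ≤ Y * e₁ * ∏ j ∈ range (r + 1), P j →
  Y * e₁ * ∏ j ∈ range (r + 1), P j ≤ y * (log y) ^ A →
  ((((Icc 1 ⌊2 * Y⌋₊).filter (fun M : ℕ => Y ≤ (M : ℝ) ∧ (M : ℤ) ∣ D * V - B ∧
    (∀ j ≤ r, ∀ p ∈ I j, ¬ p ∣ M) ∧ Nat.Coprime M e₁ ∧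
    (log y) ^ (-A) * ∏ j ∈ range (r + 1), (κ * P j + 1) ≤
      ‖boxSum r I (fun s => e ((b : ℝ) * V / ((M : ℝ) * e₁ * s)))‖)).card : ℕ) : ℝ) ≤
    Y * (log y) ^ (-A)

/-! ### Labels -/

/-- the rational `B / D` is popular at scale `T` -/
def Pop (y : ℕ) (V : ℤ) (T : ℝ) (B : ℤ) (D : ℕ) : Prop :=
  1 ≤ D ∧ (D : ℝ) ≤ T ^ (0.3 : ℝ) ∧ |(B : ℝ)| ≤ y * T ^ (0.3 : ℝ) ∧
  T ^ (0.8 : ℝ) ≤ (((Icc 1 ⌊2 * T⌋₊).filter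
    (fun M : ℕ => T ≤ (M : ℝ) ∧ (M : ℤ) ∣ D * V - B)).card : ℝ)

/-- `ρ = (B, D)` is a label: reduced form of a popular rational -/
def Lab (y : ℕ) (V : ℤ) (ρ : ℤ × ℕ) : Prop :=
  IsCoprime ρ.1 (ρ.2 : ℤ) ∧ ∃ k g : ℕ, exp ((log y) ^ (0.93 : ℝ)) ≤ (2 : ℝ) ^ k ∧
    (2 : ℝ) ^ k ≤ exp ((log y) ^ (0.95 : ℝ)) ∧ 1 ≤ g ∧ Pop y V ((2 : ℝ) ^ k) (g * ρ.1) (g * ρ.2)

/-- `n` is natural for `ρ` -/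
def Natl (V : ℤ) (ρ : ℤ × ℕ) (n : ℕ) : Prop := (n : ℤ) ∣ ρ.2 * V - ρ.1

/-- there are few labels -/
def LabelCountStmt : Prop := ∃ y₀ : ℕ, ∀ y : ℕ, y₀ ≤ y → ∀ V : ℤ,
  ∃ LL : Finset (ℤ × ℕ), (∀ ρ, Lab y V ρ → ρ ∈ LL) ∧ (LL.card : ℝ) ≤ exp ((log y) ^ (0.96 : ℝ))

/-- few primes have two labels -/
def TwoLabelStmt : Prop := ∀ c : ℝ, 0 < c → c < 1 → ∃ y₀ : ℕ, ∀ y : ℕ, y₀ ≤ y → ∀ V : ℤ,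
  ∃ U : Finset ℕ, (∑ p ∈ U, 1 / (p : ℝ)) ≤ (y : ℝ) ^ (-(c / 2)) ∧
    ∀ p : ℕ, p.Prime → (y : ℝ) ^ c ≤ p → ∀ ρ ρ' : ℤ × ℕ, Lab y V ρ → Lab y V ρ' → ρ ≠ ρ' →
      Natl V ρ p → Natl V ρ' p → p ∈ U

/-! ### The sieve -/

/-- generic sieve product -/
noncomputable def gv (Q : Finset ℕ) (g : ℕ → ℝ) (x : ℕ) : ℝ :=
  ∏ q ∈ Q.filter (fun q => q < x), (1 - g q)

/-- support of the linear sieve weights, as sets of primes; `b = 0`: lower bound, `b = 1`: upper -/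
noncomputable def supp (Q : Finset ℕ) (τ : ℕ → ℝ) (b x : ℕ) (T : ℝ) : Finset (Finset ℕ) := by
  classical
  exact (Q.filter (fun q => q < x)).powerset.filter (fun F => ∀ s ∈ F,
    Even ((F.filter (fun s' => s ≤ s')).card + b) →
      3 * τ s < T - ∑ s' ∈ F.filter (fun s' => s < s'), τ s')

/-- primes below `z` -/
def PP (z : ℕ) : Finset ℕ := (range z).filter Nat.Prime

/-- the level function of the sieve by all primes below `z` -/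
noncomputable def tau (z x : ℕ) : ℝ :=
  log z * gv (PP z) (fun q => 1 / (q : ℝ)) z / gv (PP z) (fun q => 1 / (q : ℝ)) x

/-- `p > q` are the two largest elements of `G` -/
def top2 (G : Finset ℕ) (p q : ℕ) : Prop := p ∈ G ∧ q ∈ G ∧ q < p ∧ ∀ s ∈ G, s = p ∨ s ≤ q

/-- smooth weights -/
structure GoodW (W : ℝ → ℝ) : Prop where
  smooth : ContDiff ℝ (⊤ : ℕ∞) W
  nonneg : ∀ x, 0 ≤ W x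
  le_one : ∀ x, W x ≤ 1
  supp : ∀ x, W x ≠ 0 → 0 < x ∧ x < 1
  int_pos : 0 < ∫ x, W x

/-- remainder of the smooth count of `i ≡ V mod n` -/
noncomputable def rr (W : ℝ → ℝ) (y : ℕ) (V : ℤ) (n : ℕ) : ℝ :=
  (∑ i ∈ (Icc 1 y).filter (fun i : ℕ => (n : ℤ) ∣ (i : ℤ) - V), W ((i : ℝ) / y)) -
    (y : ℝ) * (∫ x, W x) / n

/-- remainder sum over the supports whose two top primes lie in `DD` -/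
noncomputable def RD (z : ℕ) (T : ℝ) (DD : Finset (ℕ × ℕ)) (r : ℕ → ℝ) : ℝ := by
  classical
  exact ∑ G ∈ (supp (PP z) (tau z) 0 z T).filter (fun G => ∃ pq ∈ DD, top2 G pq.1 pq.2),
    (-1) ^ G.card * r (∏ p ∈ G, p)

/-- admissible pairs of primes -/
def AdmPairs (y : ℕ) (c : ℝ) (z : ℕ) (DD : Finset (ℕ × ℕ)) : Prop :=
  ∀ pq ∈ DD, pq.1.Prime ∧ pq.2.Prime ∧ (y : ℝ) ^ c ≤ pq.2 ∧ (pq.2 : ℝ) < (y : ℝ) ^ (0.16 : ℝ) ∧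
    (y : ℝ) ^ (0.16 : ℝ) ≤ pq.1 ∧ pq.1 < z

/-- Level of distribution beyond `y` (section 5 of the blueprint) -/
def LevelStmt : Prop := ∀ W : ℝ → ℝ, GoodW W → ∀ A₁ c C₇ : ℝ, 0 < A₁ → 0 < c → c < 1 / 10 →
  0 < C₇ → ∃ C₄ : ℝ, 0 < C₄ ∧ ∃ y₀ : ℕ, ∀ y : ℕ, y₀ ≤ y → ∀ (V : ℤ) (z : ℕ) (T : ℝ),
  √y * (log y) ^ (-C₇) ≤ z → (z : ℝ) ≤ √y → T ≤ log y + A₁ * log (log y) →
  ∀ (B₀ : ℤ) (D₀ : ℕ), IsCoprime B₀ (D₀ : ℤ) → 1 ≤ D₀ →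
  (D₀ : ℝ) ≤ exp ((log y) ^ (0.96 : ℝ)) → |(B₀ : ℝ)| ≤ y * exp ((log y) ^ (0.96 : ℝ)) →
  (log y) ^ C₄ ≤ max (D₀ : ℝ) (|(B₀ : ℝ)| / y) →
  ∀ DD : Finset (ℕ × ℕ), AdmPairs y c z DD →
  (∀ pq ∈ DD, ∀ ρ : ℤ × ℕ, Lab y V ρ → Natl V ρ (pq.1 * pq.2) → ρ = (B₀, D₀)) →
    |RD z T DD (rr W y V)| ≤ y / (log y) ^ 3

/-- Stability of the linear sieve (Lemma 6.1 of the blueprint) -/
def StabStmt : Prop := ∀ W : ℝ → ℝ, GoodW W → ∀ c A : ℝ, 0 < c → c < 1 / 10 → 0 < A →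
  ∃ C₇ K₀ : ℝ, 0 < C₇ ∧ 0 < K₀ ∧ ∀ A₁ : ℝ, 1 ≤ A₁ → ∃ y₀ : ℕ, ∀ y : ℕ, y₀ ≤ y → ∀ V : ℤ,
  (surv y (√y * (log y) ^ A) V : ℝ) ≤ y / (log y) ^ 2 →
  ∃ z : ℕ, √y * (log y) ^ (-C₇) ≤ z ∧ (z : ℝ) ≤ √y ∧
    ∀ DD : Finset (ℕ × ℕ), AdmPairs y c z DD →
    |RD z (2 * log z + A₁ * log (log y)) DD (rr W y V)| ≤ y / (log y) ^ 3 →
    ∑ pq ∈ DD, 1 / ((pq.1 : ℝ) * pq.2) ≤ K₀ / A₁

end Vale.Agent.P013.J
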