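import Vale.Agent.P001.LSArith
import Vale.Agent.P013.Mertens
import Vale.Agent.P013.J.Defs

/-!
# Upper bound sieve with at most two classes per prime (V3)
-/

open Finset Real

namespace Vale.Agent.P013.J

lemma mem_PP {z p : ℕ} : p ∈ PP z ↔ p < z ∧ p.Prime := by
  simp only [PP, mem_filter, mem_range]

/-- Rankin: half of the mass of the sieve denominator is carried by small products. -/
lemma rankin_half : ∃ s : ℝ, 1 ≤ s ∧ ∀ (z : ℕ) (ω : ℕ → ℕ), 2 ≤ z →
    (∀ p ∈ PP z, ω p ≤ 2 ∧ ω p < p) → ∀ Q : ℝ, (z : ℝ) ^ s ≤ Q →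
    (1 / 2) * ∏ p ∈ PP z, (1 - (ω p : ℝ) / p)⁻¹ ≤
      ∑ F ∈ (PP z).powerset.filter (fun F => ((∏ p ∈ F, p : ℕ) : ℝ) ≤ Q),
        ∏ p ∈ F, ((ω p : ℝ) / ((p : ℝ) - ω p)) := by
  obtain ⟨C, hC, hM⟩ := mertens_one
  refine ⟨5 + 6 * C, by linarith only [hC], fun z ω hz hω Q hQ => ?_⟩
  have hz2 : (2 : ℝ) ≤ z := by exact_mod_cast hz
  have hlz : 0 < Real.log z := Real.log_pos (by linarith only [hz2])
  have hl2 : Real.log 2 ≤ Real.log z := Real.log_le_log (by norm_num) hz2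
  have hl2' : (0.69 : ℝ) ≤ Real.log 2 := by
    have := Real.log_two_gt_d9
    linarith only [this]
  set δ : ℝ := 1 / Real.log z with hδ
  have hδ0 : 0 < δ := by positivity
  have hQ0 : 0 < Q := lt_of_lt_of_le (by (clear * - hz; positivity)) hQ
  set h : ℕ → ℝ := fun p => (ω p : ℝ) / ((p : ℝ) - ω p) with hh
  have hpos : ∀ p ∈ PP z, (0 : ℝ) < p ∧ (0 : ℝ) < (p : ℝ) - ω p := by
    intro p hp
    have h1 := (mem_PP.1 hp).2.pos
    have h2 := (hω p hp).2
    have h3 : (ω p : ℝ) < p := by exact_mod_cast h2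
    exact ⟨by exact_mod_cast h1, by linarith only [h3]⟩
  have hh0 : ∀ p ∈ PP z, 0 ≤ h p := fun p hp =>
    div_nonneg (Nat.cast_nonneg _) (hpos p hp).2.le
  have h1h : ∀ p ∈ PP z, 1 + h p = (1 - (ω p : ℝ) / p)⁻¹ := by
    intro p hp
    obtain ⟨a, b⟩ := hpos p hp
    have hne : (1 - (ω p : ℝ) / p) = ((p : ℝ) - ω p) / p := by (clear * - a b; field_simp)
    rw [hne, inv_div, hh]
    field_simp
    ring
  have htot : ∏ p ∈ PP z, (1 - (ω p : ℝ) / p)⁻¹ = ∑ F ∈ (PP z).powerset, ∏ p ∈ F, h p := by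
    rw [← Finset.prod_one_add]
    exact (Finset.prod_congr rfl h1h).symm
  have hsplit : ∑ F ∈ (PP z).powerset, ∏ p ∈ F, h p =
      ∑ F ∈ (PP z).powerset.filter (fun F => ((∏ p ∈ F, p : ℕ) : ℝ) ≤ Q), ∏ p ∈ F, h p +
      ∑ F ∈ (PP z).powerset.filter (fun F => ¬ ((∏ p ∈ F, p : ℕ) : ℝ) ≤ Q), ∏ p ∈ F, h p :=
    (Finset.sum_filter_add_sum_filter_not _ _ _).symm
  have htail : ∑ F ∈ (PP z).powerset.filter (fun F => ¬ ((∏ p ∈ F, p : ℕ) : ℝ) ≤ Q),
      ∏ p ∈ F, h p ≤ (1 / 2) * ∏ p ∈ PP z, (1 - (ω p : ℝ) / p)⁻¹ := by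
    have hterm : ∀ F ∈ (PP z).powerset.filter (fun F => ¬ ((∏ p ∈ F, p : ℕ) : ℝ) ≤ Q),
        ∏ p ∈ F, h p ≤ Q ^ (-δ) * ∏ p ∈ F, (h p * (p : ℝ) ^ δ) := by
      intro F hF
      rw [Finset.mem_filter, Finset.mem_powerset] at hF
      obtain ⟨hFP, hFQ⟩ := hF
      rw [Finset.prod_mul_distrib]
      have e1 : ∏ p ∈ F, (p : ℝ) ^ δ = (((∏ p ∈ F, p : ℕ) : ℝ)) ^ δ := by
        push_cast
        rw [Real.finsetProd_rpow]
        intro i _
        exact Nat.cast_nonneg _
      rw [e1]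
      have e2 : 1 ≤ Q ^ (-δ) * (((∏ p ∈ F, p : ℕ) : ℝ)) ^ δ := by
        rw [Real.rpow_neg hQ0.le, ← div_eq_inv_mul, le_div_iff₀ (by (clear * - hQ0; positivity)), one_mul]
        exact Real.rpow_le_rpow hQ0.le (not_le.1 hFQ).le hδ0.le
      have e3 : 0 ≤ ∏ p ∈ F, h p := Finset.prod_nonneg fun p hp => hh0 p (hFP hp)
      calc ∏ p ∈ F, h p = 1 * ∏ p ∈ F, h p := (one_mul _).symm
        _ ≤ (Q ^ (-δ) * (((∏ p ∈ F, p : ℕ) : ℝ)) ^ δ) * ∏ p ∈ F, h p :=
            mul_le_mul_of_nonneg_right e2 e3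
        _ = _ := by ring
    have hsum : ∑ F ∈ (PP z).powerset.filter (fun F => ¬ ((∏ p ∈ F, p : ℕ) : ℝ) ≤ Q),
        ∏ p ∈ F, h p ≤ Q ^ (-δ) * ∏ p ∈ PP z, (1 + h p * (p : ℝ) ^ δ) := by
      rw [Finset.prod_one_add, Finset.mul_sum]
      refine (Finset.sum_le_sum hterm).trans ?_
      refine Finset.sum_le_sum_of_subset_of_nonneg (Finset.filter_subset _ _) ?_
      intro F hF _
      rw [Finset.mem_powerset] at hF
      exact mul_nonneg (by (clear * - hQ0; positivity)) (Finset.prod_nonneg fun p hp =>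
        mul_nonneg (hh0 p (hF hp)) (by (clear * -; positivity)))
    have hfac : ∀ p ∈ PP z, 1 + h p * (p : ℝ) ^ δ ≤
        (1 - (ω p : ℝ) / p)⁻¹ * Real.exp (4 * δ * (Real.log p / p)) := by
      intro p hp
      obtain ⟨a, b⟩ := hpos p hp
      obtain ⟨hpz, hpp⟩ := mem_PP.1 hp
      have hlp : 0 ≤ Real.log p := Real.log_nonneg (by exact_mod_cast hpp.one_lt.le)
      have hlp' : δ * Real.log p ≤ 1 := by
        rw [hδ, one_div, ← div_eq_inv_mul, div_le_one hlz]
        exact Real.log_le_log a (by exact_mod_cast hpz.le)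
      have hexp : (p : ℝ) ^ δ - 1 ≤ 2 * (δ * Real.log p) := by
        rw [Real.rpow_def_of_pos a, mul_comm]
        have h0 : 0 ≤ δ * Real.log p := by (clear * - hlz; positivity)
        have := Real.abs_exp_sub_one_le (x := δ * Real.log p) (by rwa [abs_of_nonneg h0])
        rw [abs_of_nonneg h0] at this
        exact (le_abs_self _).trans this
      have hω2 : (ω p : ℝ) ≤ 2 := by exact_mod_cast (hω p hp).1
      have key : 1 + h p * (p : ℝ) ^ δ = (1 + h p) * (1 + (ω p : ℝ) / p * ((p : ℝ) ^ δ - 1)) := by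
        rw [hh]
        field_simp
        ring
      rw [key, h1h p hp]
      have hinv : 0 ≤ (1 - (ω p : ℝ) / p)⁻¹ := by
        rw [← h1h p hp]
        linarith only [hh0 p hp]
      refine mul_le_mul_of_nonneg_left ?_ hinv
      have h3 : (ω p : ℝ) / p * ((p : ℝ) ^ δ - 1) ≤ 4 * δ * (Real.log p / p) := by
        have h4 : 0 ≤ (p : ℝ) ^ δ - 1 := by
          have : (1 : ℝ) ≤ (p : ℝ) ^ δ := Real.one_le_rpow (by exact_mod_cast hpp.one_lt.le) hδ0.le
          linarith only [this]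
        calc (ω p : ℝ) / p * ((p : ℝ) ^ δ - 1) ≤ 2 / p * (2 * (δ * Real.log p)) := by
              refine mul_le_mul ?_ hexp h4 (by (clear * - a; positivity))
              exact div_le_div_of_nonneg_right hω2 a.le
          _ = 4 * δ * (Real.log p / p) := by ring
      calc 1 + (ω p : ℝ) / p * ((p : ℝ) ^ δ - 1) ≤ 1 + 4 * δ * (Real.log p / p) := by linarith only [h3]
        _ ≤ Real.exp (4 * δ * (Real.log p / p)) := by
            rw [add_comm]
            exact Real.add_one_le_exp _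
    have hprod : ∏ p ∈ PP z, (1 + h p * (p : ℝ) ^ δ) ≤
        (∏ p ∈ PP z, (1 - (ω p : ℝ) / p)⁻¹) * Real.exp (4 + 6 * C) := by
      have h1 : ∏ p ∈ PP z, (1 + h p * (p : ℝ) ^ δ) ≤
          ∏ p ∈ PP z, ((1 - (ω p : ℝ) / p)⁻¹ * Real.exp (4 * δ * (Real.log p / p))) :=
        Finset.prod_le_prod (fun p hp => by
          have := hh0 p hp
          (clear * - this; positivity)) hfac
      rw [Finset.prod_mul_distrib, ← Real.exp_sum, ← Finset.mul_sum] at h1
      refine h1.trans (mul_le_mul_of_nonneg_left ?_ ?_)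
      · rw [Real.exp_le_exp]
        have h2 := (abs_le.1 (hM z (by omega))).2
        have h3 : ∑ p ∈ PP z, Real.log p / p ≤ Real.log z + C := by
          have : PP z = (range z).filter Nat.Prime := rfl
          rw [this]
          linarith only [h2]
        calc 4 * δ * ∑ p ∈ PP z, Real.log p / p ≤ 4 * δ * (Real.log z + C) :=
              mul_le_mul_of_nonneg_left h3 (by positivity)
          _ = 4 + 4 * C / Real.log z := by
              rw [hδ]
              field_simp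
          _ ≤ 4 + 6 * C := by
              have h5 : 4 * C / Real.log z ≤ 6 * C := by
                rw [div_le_iff₀ hlz]
                nlinarith only [hC, hl2, hl2']
              linarith only [h5]
      · refine Finset.prod_nonneg fun p hp => ?_
        rw [← h1h p hp]
        linarith only [hh0 p hp]
    have hQδ : Q ^ (-δ) ≤ Real.exp (-(5 + 6 * C)) := by
      have h1 : (z : ℝ) ^ (5 + 6 * C) = Real.exp ((5 + 6 * C) * Real.log z) := by
        rw [Real.rpow_def_of_pos (by linarith only [hz2]), mul_comm]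
      have h2 : Q ^ (-δ) ≤ ((z : ℝ) ^ (5 + 6 * C)) ^ (-δ) :=
        Real.rpow_le_rpow_of_nonpos (by positivity) hQ (by linarith only [hδ0])
      refine h2.trans (le_of_eq ?_)
      rw [h1, ← Real.exp_mul]
      congr 1
      rw [hδ]
      (clear * - hlz hC; field_simp)
    have hP0 : 0 ≤ ∏ p ∈ PP z, (1 - (ω p : ℝ) / p)⁻¹ := by
      refine Finset.prod_nonneg fun p hp => ?_
      rw [← h1h p hp]
      linarith only [hh0 p hp]
    calc ∑ F ∈ (PP z).powerset.filter (fun F => ¬ ((∏ p ∈ F, p : ℕ) : ℝ) ≤ Q), ∏ p ∈ F, h p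
        ≤ Q ^ (-δ) * ∏ p ∈ PP z, (1 + h p * (p : ℝ) ^ δ) := hsum
      _ ≤ Real.exp (-(5 + 6 * C)) *
          ((∏ p ∈ PP z, (1 - (ω p : ℝ) / p)⁻¹) * Real.exp (4 + 6 * C)) := by
          refine mul_le_mul hQδ hprod ?_ (by positivity)
          refine Finset.prod_nonneg fun p hp => ?_
          have := hh0 p hp
          (clear * - this; positivity)
      _ = Real.exp (-1) * ∏ p ∈ PP z, (1 - (ω p : ℝ) / p)⁻¹ := by
          rw [mul_comm (∏ p ∈ PP z, (1 - (ω p : ℝ) / p)⁻¹), ← mul_assoc, ← Real.exp_add]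
          congr 2
          ring
      _ ≤ (1 / 2) * ∏ p ∈ PP z, (1 - (ω p : ℝ) / p)⁻¹ := by
          refine mul_le_mul_of_nonneg_right ?_ hP0
          rw [Real.exp_neg, one_div]
          refine inv_anti₀ (by norm_num) ?_
          have := Real.add_one_le_exp (1 : ℝ)
          linarith only [this]
  have := htot
  rw [hsplit] at this
  linarith only [htot, hsplit, htail]

/-- Upper bound sieve, at most two forbidden classes for every prime below `z`. -/
theorem upper_sieve : ∃ C s : ℝ, 0 < C ∧ 1 ≤ s ∧ ∀ (z N : ℕ) (M : ℤ) (ω : ℕ → ℕ) (S : Finset ℤ),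
    2 ≤ z → (z : ℝ) ^ s ≤ N → (∀ n ∈ S, M ≤ n ∧ n < M + N) →
    (∀ p ∈ PP z, ω p ≤ 2 ∧ ω p < p ∧
      (S.image (fun n : ℤ => (n : ZMod p))).card + ω p ≤ p) →
    (S.card : ℝ) ≤ C * N * ∏ p ∈ PP z, (1 - (ω p : ℝ) / p) := by
  obtain ⟨s, hs, hR⟩ := rankin_half
  have hc := Vale.Agent.P001.cLS_pos
  refine ⟨4 * Vale.Agent.P001.cLS, 2 * s + 2, by (clear * - hc; positivity), by linarith,
    fun z N M ω S hz hN hS hω => ?_⟩
  have hz2 : (2 : ℝ) ≤ z := by exact_mod_cast hz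
  have hzs : (z : ℝ) ^ s ≤ Nat.sqrt N := by
    have h1 : ((z : ℝ) ^ (s + 1)) ^ 2 ≤ N := by
      rw [← Real.rpow_natCast, ← Real.rpow_mul (by linarith only [])]
      refine le_trans (le_of_eq ?_) hN
      congr 1
      push_cast
      ring
    have h2 : (N : ℝ) < ((Nat.sqrt N : ℝ) + 1) ^ 2 := by
      have := Nat.lt_succ_sqrt' N
      have h3 : (N : ℝ) < (((Nat.sqrt N).succ : ℕ) : ℝ) ^ 2 := by exact_mod_cast this
      simpa only [gt_iff_lt, Nat.succ_eq_add_one, Nat.cast_add, Nat.cast_one] using h3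
    have h3 : (z : ℝ) ^ (s + 1) < (Nat.sqrt N : ℝ) + 1 :=
      lt_of_pow_lt_pow_left₀ 2 (by (clear * -; positivity)) (h1.trans_lt h2)
    have h4 : (z : ℝ) ^ (s + 1) = (z : ℝ) ^ s * z := by
      rw [Real.rpow_add_one (by linarith only [hz2])]
    have h5 : 1 ≤ (z : ℝ) ^ s := Real.one_le_rpow (by linarith only [hz2]) (by linarith only [hs])
    rw [h4] at h3
    nlinarith only [hz2, h3, h5]
  have hsq1 : 1 ≤ Nat.sqrt N := by
    have h5 : 1 ≤ (z : ℝ) ^ s := Real.one_le_rpow (by linarith) (by linarith only [hs])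
    exact_mod_cast h5.trans hzs
  have hω' : ∀ p ∈ PP z, ω p ≤ 2 ∧ ω p < p := fun p hp => ⟨(hω p hp).1, (hω p hp).2.1⟩
  have h1 := hR z ω hz hω' (Nat.sqrt N) hzs
  have h2 := Vale.Agent.P001.arith_large_sieve S M N hS (Nat.sqrt N) hsq1
    ((PP z).powerset.filter (fun F => ((∏ p ∈ F, p : ℕ) : ℝ) ≤ (Nat.sqrt N : ℕ)))
    (by
      intro F hF p hp
      rw [Finset.mem_filter, Finset.mem_powerset] at hF
      exact (mem_PP.1 (hF.1 hp)).2)
    (by
      intro F hF
      rw [Finset.mem_filter] at hF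
      exact_mod_cast hF.2)
    (fun p => p - ω p)
    (by
      intro F hF p hp
      rw [Finset.mem_filter, Finset.mem_powerset] at hF
      have := (hω p (hF.1 hp)).2.1
      omega)
    (by
      intro F hF p hp
      exact Nat.sub_le _ _)
    (by
      intro F hF p hp
      rw [Finset.mem_filter, Finset.mem_powerset] at hF
      have := (hω p (hF.1 hp)).2.2
      omega)
  have h3 : ∑ F ∈ (PP z).powerset.filter (fun F => ((∏ p ∈ F, p : ℕ) : ℝ) ≤ (Nat.sqrt N : ℕ)),
      ∏ p ∈ F, ((p : ℝ) / ((p - ω p : ℕ) : ℝ) - 1) =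
      ∑ F ∈ (PP z).powerset.filter (fun F => ((∏ p ∈ F, p : ℕ) : ℝ) ≤ (Nat.sqrt N : ℕ)),
      ∏ p ∈ F, ((ω p : ℝ) / ((p : ℝ) - ω p)) := by
    refine Finset.sum_congr rfl fun F hF => Finset.prod_congr rfl fun p hp => ?_
    rw [Finset.mem_filter, Finset.mem_powerset] at hF
    have h4 := (hω p (hF.1 hp)).2.1
    have h5 : (ω p : ℝ) < p := by exact_mod_cast h4
    rw [Nat.cast_sub h4.le]
    have h6 : (p : ℝ) - ω p ≠ 0 := by linarith only [h5]
    field_simp
    ring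
  rw [h3] at h2
  have hQ2 : ((Nat.sqrt N : ℕ) : ℝ) ^ 2 ≤ N := by
    have := Nat.sqrt_le' N
    exact_mod_cast this
  have hprodpos : 0 < ∏ p ∈ PP z, (1 - (ω p : ℝ) / p) := by
    refine Finset.prod_pos fun p hp => ?_
    have h4 := (hω p hp).2.1
    have h5 : (ω p : ℝ) < p := by exact_mod_cast h4
    have h6 : (0 : ℝ) < p := lt_of_le_of_lt (Nat.cast_nonneg _) h5
    rw [sub_pos, div_lt_one h6]
    exact h5
  rw [Finset.prod_inv_distrib] at h1
  have h4 : (S.card : ℝ) * ((1 / 2) * (∏ p ∈ PP z, (1 - (ω p : ℝ) / p))⁻¹) ≤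
      Vale.Agent.P001.cLS * (N + N) := by
    calc (S.card : ℝ) * ((1 / 2) * (∏ p ∈ PP z, (1 - (ω p : ℝ) / p))⁻¹) ≤ _ :=
          mul_le_mul_of_nonneg_left h1 (Nat.cast_nonneg _)
      _ ≤ _ := h2
      _ ≤ _ := mul_le_mul_of_nonneg_left (by linarith only [hQ2]) hc.le
  have h5 : (S.card : ℝ) * ((1 / 2) * (∏ p ∈ PP z, (1 - (ω p : ℝ) / p))⁻¹) *
      (2 * ∏ p ∈ PP z, (1 - (ω p : ℝ) / p)) = S.card := by
    (clear * - hprodpos; field_simp)
  rw [← h5]
  calc _ ≤ Vale.Agent.P001.cLS * (N + N) * (2 * ∏ p ∈ PP z, (1 - (ω p : ℝ) / p)) :=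
        mul_le_mul_of_nonneg_right h4 (by (clear * - hprodpos; positivity))
    _ = _ := by ring

/-- The image modulo `p` of a set avoiding `R` has at most `p - |R|` elements. -/
lemma image_card_add (p : ℕ) (hp : 0 < p) (S : Finset ℤ) (R : Finset (ZMod p))
    (h : ∀ n ∈ S, ((n : ℤ) : ZMod p) ∉ R) :
    (S.image (fun n : ℤ => (n : ZMod p))).card + R.card ≤ p := by
  classical
  have : NeZero p := ⟨hp.ne'⟩
  have hd : Disjoint (S.image (fun n : ℤ => (n : ZMod p))) R := by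
    rw [Finset.disjoint_left]
    intro a ha
    rw [Finset.mem_image] at ha
    obtain ⟨n, hn, rfl⟩ := ha
    exact h n hn
  rw [← Finset.card_union_of_disjoint hd]
  calc _ ≤ Fintype.card (ZMod p) := Finset.card_le_univ _
    _ = p := ZMod.card p

/-- Upper bound sieve in an arithmetic progression `n ≡ a mod m`, in terms of forbidden classes. -/
theorem upper_sieve_ap : ∃ C s : ℝ, 0 < C ∧ 1 ≤ s ∧
    ∀ (z N m : ℕ) (M a : ℤ) (ω : ℕ → ℕ) (S : Finset ℤ),
    2 ≤ z → 1 ≤ m → (∀ p ∈ PP z, ¬ p ∣ m) → (z : ℝ) ^ s ≤ (N : ℝ) / m →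
    (∀ n ∈ S, M ≤ n ∧ n < M + N ∧ (m : ℤ) ∣ n - a) →
    (∀ p ∈ PP z, ω p ≤ 2 ∧ ω p < p ∧
      ∃ R : Finset (ZMod p), ω p ≤ R.card ∧ ∀ n ∈ S, ((n : ℤ) : ZMod p) ∉ R) →
    (S.card : ℝ) ≤ C * (N / m) * ∏ p ∈ PP z, (1 - (ω p : ℝ) / p) := by
  classical
  obtain ⟨C, s, hC, hs, hmain⟩ := upper_sieve
  refine ⟨2 * C, s, by positivity, hs, fun z N m M a ω S hz hm hpm hN hS hω => ?_⟩
  have hz2 : (2 : ℝ) ≤ z := by exact_mod_cast hz
  have hm0 : (0 : ℝ) < m := by exact_mod_cast hm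
  have hmz : (0 : ℤ) < m := by exact_mod_cast hm
  have hNm : 1 ≤ (N : ℝ) / m := le_trans (Real.one_le_rpow (by (clear * - hz2; linarith)) (by linarith only [hs])) hN
  set φ : ℤ → ℤ := fun n => (n - a) / m with hφ
  have hφS : ∀ n ∈ S, (m : ℤ) * φ n = n - a := fun n hn =>
    Int.mul_ediv_cancel' (hS n hn).2.2
  have hinj : Set.InjOn φ (S : Set ℤ) := by
    intro n hn n' hn' h
    have h1 := hφS n hn
    have h2 := hφS n' hn'
    rw [h] at h1
    linarith only [h1, h2]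
  set S' : Finset ℤ := S.image φ with hS'
  have hcard : S'.card = S.card := Finset.card_image_of_injOn hinj
  set N' : ℕ := N / m + 1 with hN'
  have hN'1 : (N : ℝ) / m ≤ N' := by
    rw [div_le_iff₀ hm0]
    have h1 : N < N' * m := by
      rw [hN', Nat.add_mul, one_mul]
      have := Nat.div_add_mod N m
      have h2 := Nat.mod_lt N hm
      rw [mul_comm] at this
      omega
    have h3 : (N : ℝ) < (N' : ℝ) * m := by exact_mod_cast h1
    exact h3.le
  have hN'2 : (N' : ℝ) ≤ 2 * (N / m) := by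
    have h1 : ((N / m : ℕ) : ℝ) ≤ (N : ℝ) / m := Nat.cast_div_le
    rw [hN']
    push_cast
    (clear * - hNm h1; linarith)
  have h := hmain z N' (-((a - M) / m)) ω S' hz (hN.trans hN'1) ?_ ?_
  · rw [hcard] at h
    refine h.trans ?_
    have hprod : 0 ≤ ∏ p ∈ PP z, (1 - (ω p : ℝ) / p) := by
      refine Finset.prod_nonneg fun p hp => ?_
      have h4 := (hω p hp).2.1
      have h5 : (ω p : ℝ) < p := by exact_mod_cast h4
      have h6 : (0 : ℝ) < p := lt_of_le_of_lt (Nat.cast_nonneg _) h5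
      rw [sub_nonneg, div_le_one h6]
      exact h5.le
    calc C * N' * ∏ p ∈ PP z, (1 - (ω p : ℝ) / p)
        ≤ C * (2 * (N / m)) * ∏ p ∈ PP z, (1 - (ω p : ℝ) / p) :=
          mul_le_mul_of_nonneg_right (mul_le_mul_of_nonneg_left hN'2 hC.le) hprod
      _ = _ := by ring
  · intro t ht
    rw [hS', Finset.mem_image] at ht
    obtain ⟨n, hn, rfl⟩ := ht
    obtain ⟨h1, h2, h3⟩ := hS n hn
    have h4 := hφS n hn
    have h5 := Int.mul_ediv_add_emod (a - M) m
    have h6 := Int.emod_lt_of_pos (a - M) hmz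
    have h7 := Int.emod_nonneg (a - M) hmz.ne'
    have h8 : (N : ℤ) < N' * m := by
      have h1 : N < N' * m := by
        rw [hN', Nat.add_mul, one_mul]
        have := Nat.div_add_mod N m
        have h2 := Nat.mod_lt N hm
        rw [mul_comm] at this
        omega
      exact_mod_cast h1
    constructor
    · by_contra hcon
      have h9 : φ n + 1 ≤ -((a - M) / m) := by omega
      have h10 := mul_le_mul_of_nonneg_left h9 hmz.le
      nlinarith only [h1, h4, h5, h6, h10]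
    · by_contra hcon
      have h9 : -((a - M) / m) + N' ≤ φ n := by omega
      have h10 := mul_le_mul_of_nonneg_left h9 hmz.le
      nlinarith only [h2, h4, h5, h7, h8, h10]
  · intro p hp
    obtain ⟨h1, h2, R, hR, hRS⟩ := hω p hp
    refine ⟨h1, h2, ?_⟩
    obtain ⟨hpz, hpp⟩ := mem_PP.1 hp
    have : Fact p.Prime := ⟨hpp⟩
    have hmu : (m : ZMod p) ≠ 0 := by
      rw [Ne, ZMod.natCast_eq_zero_iff]
      exact hpm p hp
    set ψ : ZMod p → ZMod p := fun x => (x - a) * (m : ZMod p)⁻¹ with hψ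
    have hψi : Function.Injective ψ := by
      intro x y hxy
      have h3 : (x - a) = (y - a) := mul_right_cancel₀ (inv_ne_zero hmu) hxy
      exact sub_left_injective h3
    have h3 := image_card_add p hpp.pos S' (R.image ψ) (by
      intro t ht
      rw [hS', Finset.mem_image] at ht
      obtain ⟨n, hn, rfl⟩ := ht
      rw [Finset.mem_image]
      rintro ⟨x, hx, hxe⟩
      have h4 := hφS n hn
      have h5 : ((φ n : ℤ) : ZMod p) = ψ (n : ZMod p) := by
        rw [hψ]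
        have h6 : ((m : ℤ) : ZMod p) * ((φ n : ℤ) : ZMod p) = (n : ZMod p) - a := by
          rw [← Int.cast_mul, h4, Int.cast_sub]
        rw [Int.cast_natCast] at h6
        change ((φ n : ℤ) : ZMod p) = ((n : ZMod p) - a) * (m : ZMod p)⁻¹
        rw [← h6, mul_comm, ← mul_assoc, inv_mul_cancel₀ hmu, one_mul]
      rw [h5] at hxe
      have h7 := hψi hxe
      rw [h7] at hx
      exact hRS n hn hx)
    rw [Finset.card_image_of_injective _ hψi] at h3
    omega

end Vale.Agent.P013.J
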